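import Vale.Agent.Lib.P140.Defs

namespace Vale.Agent.Lib.P140

open MeasureTheory

/-! ### Pointwise facts -/

lemma ent_shift (x m m' : ℝ) (hx : 0 ≤ x) (hm : 0 < m) (hm' : 0 < m') :
    x * Real.log (x / m') - x + m'
      = (x * Real.log (x / m) - x + m) + x * Real.log (m / m') + (m' - m) := by
  rcases hx.eq_or_lt with h | h
  · subst h; simp
  · rw [Real.log_div h.ne' hm'.ne', Real.log_div h.ne' hm.ne', Real.log_div hm.ne' hm'.ne']
    ring

lemma ent_eq_klFun (x m : ℝ) (hm : 0 < m) :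
    x * Real.log (x / m) - x + m = m * InformationTheory.klFun (x / m) := by
  rw [InformationTheory.klFun_apply]
  field_simp
  ring

lemma ent_nonneg (x m : ℝ) (hx : 0 ≤ x) (hm : 0 < m) :
    0 ≤ x * Real.log (x / m) - x + m := by
  rw [ent_eq_klFun x m hm]
  exact mul_nonneg hm.le (InformationTheory.klFun_nonneg (div_nonneg hx hm.le))

lemma ent_eq_zero (x m : ℝ) (hx : 0 ≤ x) (hm : 0 < m)
    (h : x * Real.log (x / m) - x + m ≤ 0) : x = m := by
  rw [ent_eq_klFun x m hm] at h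
  have h1 : 0 ≤ InformationTheory.klFun (x / m) :=
    InformationTheory.klFun_nonneg (div_nonneg hx hm.le)
  have h2 : InformationTheory.klFun (x / m) = 0 := by
    by_contra hne
    have : 0 < InformationTheory.klFun (x / m) := lt_of_le_of_ne h1 (Ne.symm hne)
    have := mul_pos hm this
    linarith
  have h3 := (InformationTheory.klFun_eq_zero_iff (div_nonneg hx hm.le)).1 h2
  field_simp at h3
  exact h3

/-- Hellinger-type bound: `(x - m)^2 ≤ 2 (x + m) (x log(x/m) - x + m)`. -/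
lemma sq_sub_le_ent (x m : ℝ) (hx : 0 ≤ x) (hm : 0 < m) :
    (x - m) ^ 2 ≤ 2 * (x + m) * (x * Real.log (x / m) - x + m) := by
  have key : (Real.sqrt x - Real.sqrt m) ^ 2 ≤ x * Real.log (x / m) - x + m := by
    rcases hx.eq_or_lt with h | h
    · subst h
      simp [Real.sq_sqrt hm.le]
    · have hsx : 0 < Real.sqrt x := Real.sqrt_pos.2 h
      have hsm : 0 < Real.sqrt m := Real.sqrt_pos.2 hm
      have hw : 0 < Real.sqrt x / Real.sqrt m := div_pos hsx hsm
      have hlog : 1 - (Real.sqrt x / Real.sqrt m)⁻¹ ≤ Real.log (Real.sqrt x / Real.sqrt m) :=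
        Real.one_sub_inv_le_log_of_pos hw
      have hlog2 : Real.log (x / m) = 2 * Real.log (Real.sqrt x / Real.sqrt m) := by
        rw [← Real.sqrt_div' x hm.le, Real.log_sqrt (div_pos h hm).le]
        ring
      have hinv : (Real.sqrt x / Real.sqrt m)⁻¹ = Real.sqrt m / Real.sqrt x := inv_div _ _
      rw [hinv] at hlog
      have hxx : Real.sqrt x ^ 2 = x := Real.sq_sqrt h.le
      have hmm : Real.sqrt m ^ 2 = m := Real.sq_sqrt hm.le
      rw [hlog2]
      have h1 : x * (2 * (1 - Real.sqrt m / Real.sqrt x))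
          ≤ x * (2 * Real.log (Real.sqrt x / Real.sqrt m)) :=
        mul_le_mul_of_nonneg_left (by linarith) h.le
      have h2 : x * (2 * (1 - Real.sqrt m / Real.sqrt x))
          = 2 * x - 2 * Real.sqrt x * Real.sqrt m := by
        have : x * (Real.sqrt m / Real.sqrt x) = Real.sqrt x * Real.sqrt m := by
          field_simp
          nlinarith [hxx]
        linarith [this]
      nlinarith [h1, h2, hxx, hmm]
  have hsum : (Real.sqrt x + Real.sqrt m) ^ 2 ≤ 2 * (x + m) := by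
    have hxx : Real.sqrt x ^ 2 = x := Real.sq_sqrt hx
    have hmm : Real.sqrt m ^ 2 = m := Real.sq_sqrt hm.le
    nlinarith [sq_nonneg (Real.sqrt x - Real.sqrt m)]
  have hfac : (x - m) ^ 2 = (Real.sqrt x - Real.sqrt m) ^ 2 * (Real.sqrt x + Real.sqrt m) ^ 2 := by
    have hxx : Real.sqrt x ^ 2 = x := Real.sq_sqrt hx
    have hmm : Real.sqrt m ^ 2 = m := Real.sq_sqrt hm.le
    have : (Real.sqrt x - Real.sqrt m) * (Real.sqrt x + Real.sqrt m) = x - m := by nlinarith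
    rw [← mul_pow, this]
  rw [hfac]
  have h0 : 0 ≤ (Real.sqrt x - Real.sqrt m) ^ 2 := sq_nonneg _
  have h1 : 0 ≤ (Real.sqrt x + Real.sqrt m) ^ 2 := sq_nonneg _
  calc (Real.sqrt x - Real.sqrt m) ^ 2 * (Real.sqrt x + Real.sqrt m) ^ 2
      ≤ (x * Real.log (x / m) - x + m) * (2 * (x + m)) :=
        mul_le_mul key hsum h1 (le_trans h0 key)
    _ = 2 * (x + m) * (x * Real.log (x / m) - x + m) := by ring



lemma integrable_gauss_vel (b : ℝ) (hb : 0 < b) (u : Vel) :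
    Integrable (fun v : Vel => Real.exp (-b * ‖v - u‖ ^ 2)) := by
  have h := GaussianFourier.integrable_cexp_neg_mul_sq_norm_add (V := Vel) (b := (b:ℂ))
    (by simpa using hb) 0 (0 : Vel)
  have h2 : Integrable (fun v : Vel => Real.exp (-b * ‖v‖ ^ 2)) := by
    have h3 := h.re
    refine h3.congr (Filter.Eventually.of_forall fun v => ?_)
    simp only [zero_mul, add_zero]
    have : (-(b:ℂ) * (‖v‖:ℂ) ^ 2) = ((-b * ‖v‖ ^ 2 : ℝ) : ℂ) := by push_cast; ring
    rw [this]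
    exact Complex.exp_ofReal_re _
  exact h2.comp_sub_right u

lemma integrable_gauss_phase (b : ℝ) (hb : 0 < b) (u : Vel) :
    Integrable (fun z : Phase => Real.exp (-b * ‖z.2 - u‖ ^ 2)) :=
  (integrable_gauss_vel b hb u).comp_snd (volume : Measure Torus3)

lemma integrable_gMaxw (ρ : ℝ) (u : Vel) (θ : ℝ) (hθ : 0 < θ) :
    Integrable (gMaxw ρ u θ) := by
  have h := (integrable_gauss_phase (1 / (2 * θ)) (by positivity) u).const_mul
    (ρ * (2 * Real.pi * θ) ^ (-(3 : ℝ) / 2))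
  refine h.congr (Filter.Eventually.of_forall fun z => ?_)
  simp only [gMaxw]
  congr 2
  field_simp

lemma integrable_energy_gMaxw (ρ : ℝ) (u : Vel) (θ : ℝ) (hθ : 0 < θ) :
    Integrable (fun z : Phase => ‖z.2‖ ^ 2 * gMaxw ρ u θ z) := by
  have h1 := integrable_gauss_phase (1 / (4 * θ)) (by positivity) u
  have h2 := integrable_gauss_phase (1 / (2 * θ)) (by positivity) u
  have hdom : Integrable (fun z : Phase =>
      |ρ * (2 * Real.pi * θ) ^ (-(3 : ℝ) / 2)| *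
        (8 * θ * Real.exp (-(1 / (4 * θ)) * ‖z.2 - u‖ ^ 2)
          + 2 * ‖u‖ ^ 2 * Real.exp (-(1 / (2 * θ)) * ‖z.2 - u‖ ^ 2))) :=
    ((h1.const_mul (8 * θ)).add (h2.const_mul (2 * ‖u‖ ^ 2))).const_mul _
  refine hdom.mono' ?_ (Filter.Eventually.of_forall fun z => ?_)
  · have hc : Continuous (fun z : Phase => ‖z.2‖ ^ 2 * gMaxw ρ u θ z) := by
      unfold gMaxw
      fun_prop
    exact hc.aestronglyMeasurable
  · set v := z.2 with hv
    set A := ρ * (2 * Real.pi * θ) ^ (-(3 : ℝ) / 2) with hAdef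
    set x := ‖v - u‖ ^ 2 with hx
    have hx0 : 0 ≤ x := sq_nonneg _
    have hnorm : ‖v‖ ^ 2 ≤ 2 * x + 2 * ‖u‖ ^ 2 := by
      have h1 : ‖v‖ ≤ ‖v - u‖ + ‖u‖ := by
        calc ‖v‖ = ‖(v - u) + u‖ := by rw [sub_add_cancel]
          _ ≤ ‖v - u‖ + ‖u‖ := norm_add_le _ _
      have h2 : ‖v‖ ^ 2 ≤ (‖v - u‖ + ‖u‖) ^ 2 :=
        pow_le_pow_left₀ (norm_nonneg _) h1 2
      nlinarith [sq_nonneg (‖v - u‖ - ‖u‖)]
    have hexp1 : x * Real.exp (-(1 / (2 * θ)) * x) ≤ 4 * θ * Real.exp (-(1 / (4 * θ)) * x) := by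
      have h3 : x / (4 * θ) + 1 ≤ Real.exp (x / (4 * θ)) := Real.add_one_le_exp _
      have h4 : x ≤ 4 * θ * Real.exp (x / (4 * θ)) := by
        have : x / (4 * θ) ≤ Real.exp (x / (4 * θ)) := by linarith
        have h5 := mul_le_mul_of_nonneg_left this (by positivity : (0:ℝ) ≤ 4 * θ)
        have h6 : 4 * θ * (x / (4 * θ)) = x := by field_simp
        linarith
      have h7 : Real.exp (-(1 / (4 * θ)) * x) = Real.exp (x / (4 * θ)) * Real.exp (-(1 / (2 * θ)) * x) := by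
        rw [← Real.exp_add]
        congr 1
        field_simp
        ring
      rw [h7]
      have := mul_le_mul_of_nonneg_right h4 (Real.exp_pos (-(1 / (2 * θ)) * x)).le
      linarith
    have hg : gMaxw ρ u θ z = A * Real.exp (-(1 / (2 * θ)) * x) := by
      simp only [gMaxw, hAdef, hx, hv]
      congr 2
      field_simp
    rw [hg, Real.norm_eq_abs, abs_mul, abs_mul, abs_of_nonneg (sq_nonneg ‖v‖),
      abs_of_pos (Real.exp_pos _)]
    have hE := Real.exp_pos (-(1 / (2 * θ)) * x)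
    have : ‖v‖ ^ 2 * (|A| * Real.exp (-(1 / (2 * θ)) * x))
        = |A| * (‖v‖ ^ 2 * Real.exp (-(1 / (2 * θ)) * x)) := by ring
    rw [this]
    apply mul_le_mul_of_nonneg_left _ (abs_nonneg _)
    have h8 : ‖v‖ ^ 2 * Real.exp (-(1 / (2 * θ)) * x)
        ≤ (2 * x + 2 * ‖u‖ ^ 2) * Real.exp (-(1 / (2 * θ)) * x) :=
      mul_le_mul_of_nonneg_right hnorm hE.le
    nlinarith [h8, hexp1]



lemma gMaxw_pos (ρ : ℝ) (u : Vel) (θ : ℝ) (hρ : 0 < ρ) (hθ : 0 < θ) (z : Phase) :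
    0 < gMaxw ρ u θ z := by
  unfold gMaxw
  have : 0 < (2 * Real.pi * θ) ^ (-(3 : ℝ) / 2) := Real.rpow_pos_of_pos (by positivity) _
  positivity

lemma stdMaxw_pos (z : Phase) : 0 < stdMaxw z := by
  unfold stdMaxw
  have : 0 < (2 * Real.pi) ^ (-(3 : ℝ) / 2) := Real.rpow_pos_of_pos (by positivity) _
  positivity

/-- The affine-quadratic function `log (M / M')`. -/
noncomputable def ell (ρ : ℝ) (u : Vel) (θ : ℝ) (z : Phase) : ℝ :=
  (Real.log ((2 * Real.pi) ^ (-(3 : ℝ) / 2))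
      - Real.log (ρ * (2 * Real.pi * θ) ^ (-(3 : ℝ) / 2)) + ‖u‖ ^ 2 / (2 * θ))
    + (1 / (2 * θ) - 1 / 2) * ‖z.2‖ ^ 2 - (1 / θ) * inner ℝ u z.2

lemma log_ratio (ρ : ℝ) (u : Vel) (θ : ℝ) (hρ : 0 < ρ) (hθ : 0 < θ) (z : Phase) :
    Real.log (stdMaxw z / gMaxw ρ u θ z) = ell ρ u θ z := by
  have hA : 0 < (2 * Real.pi) ^ (-(3 : ℝ) / 2) := Real.rpow_pos_of_pos (by positivity) _
  have hA' : 0 < ρ * (2 * Real.pi * θ) ^ (-(3 : ℝ) / 2) :=
    mul_pos hρ (Real.rpow_pos_of_pos (by positivity) _)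
  rw [Real.log_div (stdMaxw_pos z).ne' (gMaxw_pos ρ u θ hρ hθ z).ne']
  unfold stdMaxw gMaxw ell
  rw [Real.log_mul hA.ne' (Real.exp_pos _).ne', Real.log_mul hA'.ne' (Real.exp_pos _).ne',
    Real.log_exp, Real.log_exp, norm_sub_sq_real, real_inner_comm]
  field_simp
  ring

lemma continuous_gMaxw (ρ : ℝ) (u : Vel) (θ : ℝ) : Continuous (gMaxw ρ u θ) := by
  unfold gMaxw
  fun_prop

lemma continuous_stdMaxw : Continuous stdMaxw := by
  unfold stdMaxw
  fun_prop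

lemma stdMaxw_eq : stdMaxw = gMaxw 1 0 1 := by
  funext z
  simp [stdMaxw, gMaxw]

/-- The relative entropy integrand. -/
noncomputable def hInt (f N : Phase → ℝ) (z : Phase) : ℝ :=
  f z * Real.log (f z / N z) - f z + N z

lemma relEnt_def (f N : Phase → ℝ) : relEnt f N = ∫⁻ z, ENNReal.ofReal (hInt f N z) := rfl

lemma aemeasurable_hInt (f N : Phase → ℝ) (hf : AEMeasurable f) (hN : Measurable N) :
    AEMeasurable (hInt f N) := by
  have h1 : AEMeasurable (fun z => f z / N z) := hf.div hN.aemeasurable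
  have h2 : AEMeasurable (fun z => Real.log (f z / N z)) :=
    Real.measurable_log.comp_aemeasurable h1
  exact ((hf.mul h2).sub hf).add hN.aemeasurable

lemma hInt_nonneg_ae (f N : Phase → ℝ) (hf : ∀ᵐ z ∂(volume : Measure Phase), 0 ≤ f z)
    (hN : ∀ z, 0 < N z) : ∀ᵐ z ∂(volume : Measure Phase), 0 ≤ hInt f N z := by
  filter_upwards [hf] with z hz
  exact ent_nonneg _ _ hz (hN z)

lemma integrable_hInt_of_ne_top (f N : Phase → ℝ) (hf : AEMeasurable f) (hN : Measurable N)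
    (hnn : ∀ᵐ z ∂(volume : Measure Phase), 0 ≤ hInt f N z) (h : relEnt f N ≠ ⊤) :
    Integrable (hInt f N) :=
  ⟨(aemeasurable_hInt f N hf hN).aestronglyMeasurable,
    (hasFiniteIntegral_iff_ofReal hnn).2 (lt_top_iff_ne_top.2 h)⟩

lemma relEnt_eq_ofReal (f N : Phase → ℝ) (hint : Integrable (hInt f N))
    (hnn : ∀ᵐ z ∂(volume : Measure Phase), 0 ≤ hInt f N z) :
    relEnt f N = ENNReal.ofReal (∫ z, hInt f N z) :=
  (ofReal_integral_eq_lintegral_ofReal hint hnn).symm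

lemma integrable_smul_vel (f : Phase → ℝ) (hf : Integrable f)
    (hfe : Integrable (fun z : Phase => ‖z.2‖ ^ 2 * f z)) :
    Integrable (fun z : Phase => f z • z.2) := by
  have hdom : Integrable (fun z : Phase => |f z| + |‖z.2‖ ^ 2 * f z|) := hf.abs.add hfe.abs
  refine hdom.mono' ?_ (Filter.Eventually.of_forall fun z => ?_)
  · exact hf.aestronglyMeasurable.smul continuous_snd.aestronglyMeasurable
  · rw [norm_smul, Real.norm_eq_abs, abs_mul, abs_of_nonneg (sq_nonneg ‖z.2‖)]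
    have h1 : ‖z.2‖ ≤ 1 + ‖z.2‖ ^ 2 := by nlinarith [sq_nonneg (‖z.2‖ - 1), norm_nonneg z.2]
    have := mul_le_mul_of_nonneg_left h1 (abs_nonneg (f z))
    linarith

lemma mul_ell_eq (ρ : ℝ) (u : Vel) (θ : ℝ) (f : Phase → ℝ) (z : Phase) :
    f z * ell ρ u θ z =
      (Real.log ((2 * Real.pi) ^ (-(3 : ℝ) / 2))
        - Real.log (ρ * (2 * Real.pi * θ) ^ (-(3 : ℝ) / 2)) + ‖u‖ ^ 2 / (2 * θ)) * f z
      + (1 / (2 * θ) - 1 / 2) * (‖z.2‖ ^ 2 * f z) - (1 / θ) * inner ℝ u (f z • z.2) := by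
  rw [inner_smul_right]
  unfold ell
  ring

lemma integrable_mul_ell (ρ : ℝ) (u : Vel) (θ : ℝ) (f : Phase → ℝ) (hf : Integrable f)
    (hfe : Integrable (fun z : Phase => ‖z.2‖ ^ 2 * f z)) :
    Integrable (fun z : Phase => f z * ell ρ u θ z) := by
  have h3 : Integrable (fun z : Phase => inner ℝ u (f z • z.2)) :=
    (integrable_smul_vel f hf hfe).const_inner u
  have := ((hf.const_mul (Real.log ((2 * Real.pi) ^ (-(3 : ℝ) / 2))
        - Real.log (ρ * (2 * Real.pi * θ) ^ (-(3 : ℝ) / 2)) + ‖u‖ ^ 2 / (2 * θ))).add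
      (hfe.const_mul (1 / (2 * θ) - 1 / 2))).sub (h3.const_mul (1 / θ))
  refine this.congr (Filter.Eventually.of_forall fun z => ?_)
  simp only [Pi.add_apply, Pi.sub_apply]
  rw [mul_ell_eq]

lemma integral_mul_ell (ρ : ℝ) (u : Vel) (θ : ℝ) (f : Phase → ℝ) (hf : Integrable f)
    (hfe : Integrable (fun z : Phase => ‖z.2‖ ^ 2 * f z)) :
    ∫ z, f z * ell ρ u θ z =
      (Real.log ((2 * Real.pi) ^ (-(3 : ℝ) / 2))
        - Real.log (ρ * (2 * Real.pi * θ) ^ (-(3 : ℝ) / 2)) + ‖u‖ ^ 2 / (2 * θ)) * (∫ z, f z)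
      + (1 / (2 * θ) - 1 / 2) * (∫ z : Phase, ‖z.2‖ ^ 2 * f z)
      - (1 / θ) * inner ℝ u (∫ z : Phase, f z • z.2) := by
  have h3 : Integrable (fun z : Phase => inner ℝ u (f z • z.2)) :=
    (integrable_smul_vel f hf hfe).const_inner u
  simp_rw [mul_ell_eq]
  have i1 : Integrable (fun z : Phase => (Real.log ((2 * Real.pi) ^ (-(3 : ℝ) / 2))
        - Real.log (ρ * (2 * Real.pi * θ) ^ (-(3 : ℝ) / 2)) + ‖u‖ ^ 2 / (2 * θ)) * f z) :=
    hf.const_mul _
  have i2 : Integrable (fun z : Phase => (1 / (2 * θ) - 1 / 2) * (‖z.2‖ ^ 2 * f z)) :=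
    hfe.const_mul _
  have i12 : Integrable (fun z : Phase => (Real.log ((2 * Real.pi) ^ (-(3 : ℝ) / 2))
        - Real.log (ρ * (2 * Real.pi * θ) ^ (-(3 : ℝ) / 2)) + ‖u‖ ^ 2 / (2 * θ)) * f z
        + (1 / (2 * θ) - 1 / 2) * (‖z.2‖ ^ 2 * f z)) := i1.add i2
  have i3 : Integrable (fun z : Phase => (1 / θ) * inner ℝ u (f z • z.2)) := h3.const_mul _
  rw [integral_sub i12 i3, integral_add i1 i2, integral_const_mul, integral_const_mul,
    integral_const_mul, integral_inner (integrable_smul_vel f hf hfe)]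

lemma hInt_shift_ae (ρ : ℝ) (u : Vel) (θ : ℝ) (hρ : 0 < ρ) (hθ : 0 < θ) (g : Phase → ℝ)
    (hg : ∀ᵐ z ∂(volume : Measure Phase), 0 ≤ g z) :
    (fun z => hInt g (gMaxw ρ u θ) z) =ᵐ[volume]
      fun z => hInt g stdMaxw z + g z * ell ρ u θ z + (gMaxw ρ u θ z - stdMaxw z) := by
  filter_upwards [hg] with z hz
  unfold hInt
  rw [ent_shift (g z) (stdMaxw z) (gMaxw ρ u θ z) hz (stdMaxw_pos z) (gMaxw_pos ρ u θ hρ hθ z),
    log_ratio ρ u θ hρ hθ z]


/-- Along the balance laws and the entropy inequality relative to the reference Maxwellian,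
the entropy relative to any global Maxwellian of temperature at most one does not increase. -/
lemma relEnt_le_of_balance' (ρ θ : ℝ) (u : Vel) (hρ : 0 < ρ) (hθ : 0 < θ)
    (f f0 : Phase → ℝ)
    (hf_nn : ∀ᵐ z ∂(volume : Measure Phase), 0 ≤ f z)
    (hf0_nn : ∀ᵐ z ∂(volume : Measure Phase), 0 ≤ f0 z)
    (hf : Integrable f) (hf0 : Integrable f0)
    (hfe : Integrable (fun z : Phase => ‖z.2‖ ^ 2 * f z))
    (hf0e : Integrable (fun z : Phase => ‖z.2‖ ^ 2 * f0 z))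
    (hmass : ∫ z, f z = ∫ z, f0 z)
    (hmom : ∫ z : Phase, f z • z.2 = ∫ z : Phase, f0 z • z.2)
    (hen : (1 / (2 * θ) - 1 / 2) * (∫ z : Phase, ‖z.2‖ ^ 2 * f z)
      ≤ (1 / (2 * θ) - 1 / 2) * (∫ z : Phase, ‖z.2‖ ^ 2 * f0 z))
    (hent : relEnt f stdMaxw ≤ relEnt f0 stdMaxw) :
    relEnt f (gMaxw ρ u θ) ≤ relEnt f0 (gMaxw ρ u θ) := by
  have hMm : Measurable stdMaxw := continuous_stdMaxw.measurable
  have hM'm : Measurable (gMaxw ρ u θ) := (continuous_gMaxw ρ u θ).measurable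
  have hM'pos := gMaxw_pos ρ u θ hρ hθ
  have hMi : Integrable stdMaxw := by
    rw [stdMaxw_eq]
    exact integrable_gMaxw 1 0 1 one_pos
  have hM'i : Integrable (gMaxw ρ u θ) := integrable_gMaxw ρ u θ hθ
  have hdiff : Integrable (fun z => gMaxw ρ u θ z - stdMaxw z) := hM'i.sub hMi
  have hnnM : ∀ g : Phase → ℝ, (∀ᵐ z ∂(volume : Measure Phase), 0 ≤ g z) →
      ∀ᵐ z ∂(volume : Measure Phase), 0 ≤ hInt g stdMaxw z :=
    fun g hg => hInt_nonneg_ae g stdMaxw hg stdMaxw_pos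
  have hnnM' : ∀ g : Phase → ℝ, (∀ᵐ z ∂(volume : Measure Phase), 0 ≤ g z) →
      ∀ᵐ z ∂(volume : Measure Phase), 0 ≤ hInt g (gMaxw ρ u θ) z :=
    fun g hg => hInt_nonneg_ae g (gMaxw ρ u θ) hg hM'pos
  have hl : Integrable (fun z => f z * ell ρ u θ z) := integrable_mul_ell ρ u θ f hf hfe
  have hl0 : Integrable (fun z => f0 z * ell ρ u θ z) := integrable_mul_ell ρ u θ f0 hf0 hf0e
  by_cases htop : relEnt f0 stdMaxw = ⊤
  · have : relEnt f0 (gMaxw ρ u θ) = ⊤ := by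
      by_contra hne
      have hI' : Integrable (hInt f0 (gMaxw ρ u θ)) :=
        integrable_hInt_of_ne_top f0 _ hf0.aestronglyMeasurable.aemeasurable hM'm
          (hnnM' f0 hf0_nn) hne
      have hI : Integrable (hInt f0 stdMaxw) := by
        have h1 : Integrable (fun z => hInt f0 (gMaxw ρ u θ) z - f0 z * ell ρ u θ z
            - (gMaxw ρ u θ z - stdMaxw z)) := (hI'.sub hl0).sub hdiff
        refine h1.congr ?_
        filter_upwards [hInt_shift_ae ρ u θ hρ hθ f0 hf0_nn] with z hz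
        rw [hz]
        ring
      rw [relEnt_eq_ofReal f0 stdMaxw hI (hnnM f0 hf0_nn)] at htop
      exact ENNReal.ofReal_ne_top htop
    rw [this]
    exact le_top
  · have htop' : relEnt f stdMaxw ≠ ⊤ := ne_top_of_le_ne_top htop hent
    have hI0 : Integrable (hInt f0 stdMaxw) :=
      integrable_hInt_of_ne_top f0 _ hf0.aestronglyMeasurable.aemeasurable hMm
        (hnnM f0 hf0_nn) htop
    have hI : Integrable (hInt f stdMaxw) :=
      integrable_hInt_of_ne_top f _ hf.aestronglyMeasurable.aemeasurable hMm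
        (hnnM f hf_nn) htop'
    have hS0 : Integrable (fun z => hInt f0 stdMaxw z + f0 z * ell ρ u θ z
        + (gMaxw ρ u θ z - stdMaxw z)) := (hI0.add hl0).add hdiff
    have hS : Integrable (fun z => hInt f stdMaxw z + f z * ell ρ u θ z
        + (gMaxw ρ u θ z - stdMaxw z)) := (hI.add hl).add hdiff
    have hI0' : Integrable (hInt f0 (gMaxw ρ u θ)) :=
      hS0.congr (hInt_shift_ae ρ u θ hρ hθ f0 hf0_nn).symm
    have hI' : Integrable (hInt f (gMaxw ρ u θ)) :=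
      hS.congr (hInt_shift_ae ρ u θ hρ hθ f hf_nn).symm
    have hA : Integrable (fun z => hInt f stdMaxw z + f z * ell ρ u θ z) := hI.add hl
    have hA0 : Integrable (fun z => hInt f0 stdMaxw z + f0 z * ell ρ u θ z) := hI0.add hl0
    rw [relEnt_eq_ofReal f _ hI' (hnnM' f hf_nn), relEnt_eq_ofReal f0 _ hI0' (hnnM' f0 hf0_nn)]
    apply ENNReal.ofReal_le_ofReal
    rw [integral_congr_ae (hInt_shift_ae ρ u θ hρ hθ f hf_nn),
      integral_congr_ae (hInt_shift_ae ρ u θ hρ hθ f0 hf0_nn),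
      integral_add hA hdiff, integral_add hI hl,
      integral_add hA0 hdiff, integral_add hI0 hl0]
    have e1 : ∫ z, hInt f stdMaxw z ≤ ∫ z, hInt f0 stdMaxw z := by
      have h := hent
      rw [relEnt_eq_ofReal f _ hI (hnnM f hf_nn), relEnt_eq_ofReal f0 _ hI0 (hnnM f0 hf0_nn)] at h
      exact (ENNReal.ofReal_le_ofReal_iff (integral_nonneg_of_ae (hnnM f0 hf0_nn))).1 h
    have e2 : ∫ z, f z * ell ρ u θ z ≤ ∫ z, f0 z * ell ρ u θ z := by
      rw [integral_mul_ell ρ u θ f hf hfe, integral_mul_ell ρ u θ f0 hf0 hf0e, hmass, hmom]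
      linarith
    linarith

/-- Cold case: temperature at most one and nonincreasing energy. -/
lemma relEnt_le_of_balance (ρ θ : ℝ) (u : Vel) (hρ : 0 < ρ) (hθ : 0 < θ) (hθ1 : θ ≤ 1)
    (f f0 : Phase → ℝ)
    (hf_nn : ∀ᵐ z ∂(volume : Measure Phase), 0 ≤ f z)
    (hf0_nn : ∀ᵐ z ∂(volume : Measure Phase), 0 ≤ f0 z)
    (hf : Integrable f) (hf0 : Integrable f0)
    (hfe : Integrable (fun z : Phase => ‖z.2‖ ^ 2 * f z))
    (hf0e : Integrable (fun z : Phase => ‖z.2‖ ^ 2 * f0 z))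
    (hmass : ∫ z, f z = ∫ z, f0 z)
    (hmom : ∫ z : Phase, f z • z.2 = ∫ z : Phase, f0 z • z.2)
    (hen : ∫ z : Phase, ‖z.2‖ ^ 2 * f z ≤ ∫ z : Phase, ‖z.2‖ ^ 2 * f0 z)
    (hent : relEnt f stdMaxw ≤ relEnt f0 stdMaxw) :
    relEnt f (gMaxw ρ u θ) ≤ relEnt f0 (gMaxw ρ u θ) := by
  have ha : 0 ≤ 1 / (2 * θ) - 1 / 2 := by
    rw [sub_nonneg, div_le_div_iff₀ (by norm_num) (by positivity)]
    linarith
  exact relEnt_le_of_balance' ρ θ u hρ hθ f f0 hf_nn hf0_nn hf hf0 hfe hf0e hmass hmom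
    (mul_le_mul_of_nonneg_left hen ha) hent

/-- Vanishing relative entropy forces equality almost everywhere. -/
lemma ae_eq_of_relEnt_eq_zero (f N : Phase → ℝ) (hf : AEMeasurable f) (hN : Measurable N)
    (hNpos : ∀ z, 0 < N z) (hf_nn : ∀ᵐ z ∂(volume : Measure Phase), 0 ≤ f z)
    (h : relEnt f N = 0) : f =ᵐ[volume] N := by
  rw [relEnt_def, lintegral_eq_zero_iff' (aemeasurable_hInt f N hf hN).ennreal_ofReal] at h
  filter_upwards [h, hf_nn] with z hz hz0
  have : hInt f N z ≤ 0 := by simpa using hz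
  exact ent_eq_zero (f z) (N z) hz0 (hNpos z) this

lemma relEnt_self (N : Phase → ℝ) (hNpos : ∀ z, 0 < N z) : relEnt N N = 0 := by
  rw [relEnt_def]
  have : ∀ z, ENNReal.ofReal (hInt N N z) = 0 := by
    intro z
    unfold hInt
    rw [div_self (hNpos z).ne']
    simp
  simp [this]



lemma volume_torus_univ : (volume : Measure Torus3) Set.univ = 1 := by
  rw [volume_pi, Measure.pi_univ]
  simp

lemma integral_gMaxw (ρ : ℝ) (u : Vel) (θ : ℝ) (hθ : 0 < θ) :
    ∫ z, gMaxw ρ u θ z = ρ := by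
  have h1 : ∫ z : Phase, gMaxw ρ u θ z
      = (volume : Measure Torus3).real Set.univ •
        ∫ v : Vel, ρ * (2 * Real.pi * θ) ^ (-(3 : ℝ) / 2) * Real.exp (-‖v - u‖ ^ 2 / (2 * θ)) :=
    integral_fun_snd (μ := (volume : Measure Torus3)) (ν := (volume : Measure Vel))
      (fun v : Vel => ρ * (2 * Real.pi * θ) ^ (-(3 : ℝ) / 2) * Real.exp (-‖v - u‖ ^ 2 / (2 * θ)))
  rw [h1, Measure.real, volume_torus_univ, ENNReal.toReal_one, one_smul, integral_const_mul]
  have h2 : ∫ v : Vel, Real.exp (-‖v - u‖ ^ 2 / (2 * θ))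
      = ∫ v : Vel, Real.exp (-(1 / (2 * θ)) * ‖v‖ ^ 2) := by
    rw [← integral_sub_right_eq_self (fun v : Vel => Real.exp (-(1 / (2 * θ)) * ‖v‖ ^ 2)) u]
    congr 1
    funext v
    congr 1
    field_simp
  rw [h2, GaussianFourier.integral_rexp_neg_mul_sq_norm (by positivity : (0:ℝ) < 1 / (2 * θ))]
  have h3 : (Module.finrank ℝ Vel : ℝ) = 3 := by simp
  have h4 : Real.pi / (1 / (2 * θ)) = 2 * Real.pi * θ := by field_simp
  rw [h3, h4, mul_assoc, ← Real.rpow_add (by positivity)]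
  norm_num



theorem cold_maxwellian_unique (ρ θ : ℝ) (u : Vel) (hρ : 0 < ρ) (hθ : 0 < θ) (hθ1 : θ ≤ 1)
    (F : ℝ → Phase → ℝ) (hF : BalanceClass (gMaxw ρ u θ) F) (t : ℝ) (ht : 0 ≤ t) :
    F t =ᵐ[volume] gMaxw ρ u θ := by
  have hM'pos := gMaxw_pos ρ u θ hρ hθ
  have hM'm : Measurable (gMaxw ρ u θ) := (continuous_gMaxw ρ u θ).measurable
  have h := relEnt_le_of_balance ρ θ u hρ hθ hθ1 (F t) (gMaxw ρ u θ) (hF.nonneg t ht)
    (Filter.Eventually.of_forall fun z => (hM'pos z).le) (hF.integrable t ht)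
    (integrable_gMaxw ρ u θ hθ) (hF.integrable_energy t ht) (integrable_energy_gMaxw ρ u θ hθ)
    (hF.mass t ht) (hF.momentum t ht) (hF.energy t ht) (hF.entropy t ht)
  rw [relEnt_self _ hM'pos] at h
  exact ae_eq_of_relEnt_eq_zero (F t) _ (hF.integrable t ht).aestronglyMeasurable.aemeasurable
    hM'm hM'pos (hF.nonneg t ht) (le_antisymm h bot_le)

/-- Unnormalized Csiszar-Kullback-Pinsker type inequality (via the Hellinger distance). -/
lemma l1_sq_le_relEnt (f N : Phase → ℝ) (hf_nn : ∀ᵐ z ∂(volume : Measure Phase), 0 ≤ f z)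
    (hf : Integrable f) (hN : Measurable N) (hNpos : ∀ z, 0 < N z) (hNi : Integrable N)
    (hfin : relEnt f N ≠ ⊤) :
    (∫ z, |f z - N z|) ^ 2 ≤ 2 * ((∫ z, f z) + ∫ z, N z) * (relEnt f N).toReal := by
  have hnn := hInt_nonneg_ae f N hf_nn hNpos
  have hI : Integrable (hInt f N) :=
    integrable_hInt_of_ne_top f N hf.aestronglyMeasurable.aemeasurable hN hnn hfin
  have hH : (relEnt f N).toReal = ∫ z, hInt f N z := by
    rw [relEnt_eq_ofReal f N hI hnn, ENNReal.toReal_ofReal (integral_nonneg_of_ae hnn)]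
  rw [hH]
  set H := ∫ z, hInt f N z with hHdef
  set D := ∫ z, |f z - N z| with hDdef
  set S := (∫ z, f z) + ∫ z, N z with hSdef
  have hH0 : 0 ≤ H := integral_nonneg_of_ae hnn
  have hD0 : 0 ≤ D := integral_nonneg fun z => abs_nonneg _
  have hdiff : Integrable (fun z => |f z - N z|) := (hf.sub hNi).abs
  have hsum : Integrable (fun z => f z + N z) := hf.add hNi
  have hS : S = ∫ z, (f z + N z) := by rw [hSdef, integral_add hf hNi]
  have hDS : D ≤ S := by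
    rw [hS]
    apply integral_mono_ae hdiff hsum
    filter_upwards [hf_nn] with z hz
    rw [abs_le]
    constructor <;> linarith [(hNpos z).le]
  have hlam : ∀ lam : ℝ, 0 < lam → D ≤ lam * S + H / (2 * lam) := by
    intro lam hlam
    have hrhs : Integrable (fun z => lam * (f z + N z) + hInt f N z / (2 * lam)) :=
      (hsum.const_mul lam).add (hI.div_const _)
    have : D ≤ ∫ z, (lam * (f z + N z) + hInt f N z / (2 * lam)) := by
      apply integral_mono_ae hdiff hrhs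
      filter_upwards [hf_nn, hnn] with z hz hhz
      have hA : 0 ≤ lam * (f z + N z) := by
        have := (hNpos z).le
        positivity
      have hB : 0 ≤ hInt f N z / (2 * lam) := by positivity
      apply abs_le_of_sq_le_sq _ (add_nonneg hA hB)
      have h1 := sq_sub_le_ent (f z) (N z) hz (hNpos z)
      have h2 : 4 * (lam * (f z + N z)) * (hInt f N z / (2 * lam))
          = 2 * (f z + N z) * hInt f N z := by
        field_simp
        ring
      have h3 : hInt f N z = f z * Real.log (f z / N z) - f z + N z := rfl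
      nlinarith [sq_nonneg (lam * (f z + N z) - hInt f N z / (2 * lam))]
    rw [integral_add (hsum.const_mul lam) (hI.div_const _), integral_const_mul,
      integral_div, ← hS] at this
    exact this
  rcases hD0.eq_or_lt with hD | hD
  · rw [← hD]
    have hS0 : 0 ≤ S := le_trans hD0 hDS
    have h0 : 0 ≤ 2 * S * H := by positivity
    simpa using h0
  · have hSpos : 0 < S := lt_of_lt_of_le hD hDS
    have h := hlam (D / (2 * S)) (by positivity)
    have e1 : D / (2 * S) * S = D / 2 := by field_simp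
    have e2 : H / (2 * (D / (2 * S))) = H * S / D := by field_simp
    rw [e1, e2] at h
    have h4 : D / 2 ≤ H * S / D := by linarith
    have h5 : D / 2 * D ≤ H * S := by
      have := mul_le_mul_of_nonneg_right h4 hD.le
      rwa [div_mul_cancel₀ _ hD.ne'] at this
    nlinarith


/-- Energy-conserving case: any temperature. -/
theorem maxwellian_unique_energy (ρ θ : ℝ) (u : Vel) (hρ : 0 < ρ) (hθ : 0 < θ)
    (F : ℝ → Phase → ℝ) (hF : BalanceClass (gMaxw ρ u θ) F) (t : ℝ) (ht : 0 ≤ t)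
    (hE : ∫ z : Phase, ‖z.2‖ ^ 2 * F t z = ∫ z : Phase, ‖z.2‖ ^ 2 * gMaxw ρ u θ z) :
    F t =ᵐ[volume] gMaxw ρ u θ := by
  have hM'pos := gMaxw_pos ρ u θ hρ hθ
  have hM'm : Measurable (gMaxw ρ u θ) := (continuous_gMaxw ρ u θ).measurable
  have h := relEnt_le_of_balance' ρ θ u hρ hθ (F t) (gMaxw ρ u θ) (hF.nonneg t ht)
    (Filter.Eventually.of_forall fun z => (hM'pos z).le) (hF.integrable t ht)
    (integrable_gMaxw ρ u θ hθ) (hF.integrable_energy t ht) (integrable_energy_gMaxw ρ u θ hθ)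
    (hF.mass t ht) (hF.momentum t ht) (by rw [hE]) (hF.entropy t ht)
  rw [relEnt_self _ hM'pos] at h
  exact ae_eq_of_relEnt_eq_zero (F t) _ (hF.integrable t ht).aestronglyMeasurable.aemeasurable
    hM'm hM'pos (hF.nonneg t ht) (le_antisymm h bot_le)

theorem cold_relEnt_decay (ρ θ : ℝ) (u : Vel) (hρ : 0 < ρ) (hθ : 0 < θ) (hθ1 : θ ≤ 1)
    (F0 : Phase → ℝ) (hF0_nn : ∀ᵐ z ∂(volume : Measure Phase), 0 ≤ F0 z)
    (hF0 : Integrable F0) (hF0e : Integrable (fun z : Phase => ‖z.2‖ ^ 2 * F0 z))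
    (F : ℝ → Phase → ℝ) (hF : BalanceClass F0 F) (t : ℝ) (ht : 0 ≤ t) :
    relEnt (F t) (gMaxw ρ u θ) ≤ relEnt F0 (gMaxw ρ u θ) :=
  relEnt_le_of_balance ρ θ u hρ hθ hθ1 (F t) F0 (hF.nonneg t ht) hF0_nn (hF.integrable t ht)
    hF0 (hF.integrable_energy t ht) hF0e (hF.mass t ht) (hF.momentum t ht) (hF.energy t ht)
    (hF.entropy t ht)

theorem l1_stability (ρ θ : ℝ) (u : Vel) (hρ : 0 < ρ) (hθ : 0 < θ) (hθ1 : θ ≤ 1)
    (F0 : Phase → ℝ) (hF0_nn : ∀ᵐ z ∂(volume : Measure Phase), 0 ≤ F0 z)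
    (hF0 : Integrable F0) (hF0e : Integrable (fun z : Phase => ‖z.2‖ ^ 2 * F0 z))
    (hfin : relEnt F0 (gMaxw ρ u θ) ≠ ⊤)
    (F : ℝ → Phase → ℝ) (hF : BalanceClass F0 F) (t : ℝ) (ht : 0 ≤ t) :
    (∫ z, |F t z - gMaxw ρ u θ z|) ^ 2
      ≤ 2 * ((∫ z, F0 z) + ρ) * (relEnt F0 (gMaxw ρ u θ)).toReal := by
  have hdec := cold_relEnt_decay ρ θ u hρ hθ hθ1 F0 hF0_nn hF0 hF0e F hF t ht
  have hfin' : relEnt (F t) (gMaxw ρ u θ) ≠ ⊤ := ne_top_of_le_ne_top hfin hdec
  have h := l1_sq_le_relEnt (F t) (gMaxw ρ u θ) (hF.nonneg t ht) (hF.integrable t ht)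
    (continuous_gMaxw ρ u θ).measurable (gMaxw_pos ρ u θ hρ hθ) (integrable_gMaxw ρ u θ hθ) hfin'
  rw [integral_gMaxw ρ u θ hθ, hF.mass t ht] at h
  have hmono : (relEnt (F t) (gMaxw ρ u θ)).toReal ≤ (relEnt F0 (gMaxw ρ u θ)).toReal :=
    ENNReal.toReal_mono hfin hdec
  have hS : 0 ≤ 2 * ((∫ z, F0 z) + ρ) := by
    have : 0 ≤ ∫ z, F0 z := integral_nonneg_of_ae hF0_nn
    positivity
  exact le_trans h (mul_le_mul_of_nonneg_left hmono hS)

theorem near_uniqueness (ρ θ : ℝ) (u : Vel) (hρ : 0 < ρ) (hθ : 0 < θ) (hθ1 : θ ≤ 1)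
    (F0 : Phase → ℝ) (hF0_nn : ∀ᵐ z ∂(volume : Measure Phase), 0 ≤ F0 z)
    (hF0 : Integrable F0) (hF0e : Integrable (fun z : Phase => ‖z.2‖ ^ 2 * F0 z))
    (hfin : relEnt F0 (gMaxw ρ u θ) ≠ ⊤)
    (F G : ℝ → Phase → ℝ) (hF : BalanceClass F0 F) (hG : BalanceClass F0 G)
    (t : ℝ) (ht : 0 ≤ t) :
    (∫ z, |F t z - G t z|) ^ 2
      ≤ 8 * ((∫ z, F0 z) + ρ) * (relEnt F0 (gMaxw ρ u θ)).toReal := by
  have h1 := l1_stability ρ θ u hρ hθ hθ1 F0 hF0_nn hF0 hF0e hfin F hF t ht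
  have h2 := l1_stability ρ θ u hρ hθ hθ1 F0 hF0_nn hF0 hF0e hfin G hG t ht
  have hM'i := integrable_gMaxw ρ u θ hθ
  have i1 : Integrable (fun z => |F t z - gMaxw ρ u θ z|) := ((hF.integrable t ht).sub hM'i).abs
  have i2 : Integrable (fun z => |G t z - gMaxw ρ u θ z|) := ((hG.integrable t ht).sub hM'i).abs
  have i3 : Integrable (fun z => |F t z - G t z|) :=
    ((hF.integrable t ht).sub (hG.integrable t ht)).abs
  have htri : ∫ z, |F t z - G t z|
      ≤ (∫ z, |F t z - gMaxw ρ u θ z|) + ∫ z, |G t z - gMaxw ρ u θ z| := by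
    rw [← integral_add i1 i2]
    apply integral_mono i3 (i1.add i2)
    intro z
    have : F t z - G t z = (F t z - gMaxw ρ u θ z) - (G t z - gMaxw ρ u θ z) := by ring
    simp only [this]
    exact abs_sub _ _
  have hD0 : 0 ≤ ∫ z, |F t z - G t z| := integral_nonneg fun z => abs_nonneg _
  have hD1 : 0 ≤ ∫ z, |F t z - gMaxw ρ u θ z| := integral_nonneg fun z => abs_nonneg _
  have hD2 : 0 ≤ ∫ z, |G t z - gMaxw ρ u θ z| := integral_nonneg fun z => abs_nonneg _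
  nlinarith [sq_nonneg ((∫ z, |F t z - gMaxw ρ u θ z|) - ∫ z, |G t z - gMaxw ρ u θ z|)]


/-- Dichotomy for Maxwellian data of arbitrary temperature. -/
theorem maxwellian_dichotomy (ρ θ : ℝ) (u : Vel) (hρ : 0 < ρ) (hθ : 0 < θ)
    (F : ℝ → Phase → ℝ) (hF : BalanceClass (gMaxw ρ u θ) F) (t : ℝ) (ht : 0 ≤ t) :
    F t =ᵐ[volume] gMaxw ρ u θ ∨
      (1 < θ ∧ ∫ z : Phase, ‖z.2‖ ^ 2 * F t z < ∫ z : Phase, ‖z.2‖ ^ 2 * gMaxw ρ u θ z) := by
  by_cases h1 : θ ≤ 1
  · exact Or.inl (cold_maxwellian_unique ρ θ u hρ hθ h1 F hF t ht)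
  · rcases (hF.energy t ht).eq_or_lt with hE | hE
    · exact Or.inl (maxwellian_unique_energy ρ θ u hρ hθ F hF t ht hE)
    · exact Or.inr ⟨not_le.1 h1, hE⟩

end Vale.Agent.Lib.P140
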