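import Mathlib

namespace Vale.Agent.Lib.P140

open MeasureTheory

/-- The periodic box `ℝ^3/ℤ^3` (with its Haar probability measure). -/
abbrev Torus3 : Type := Fin 3 → UnitAddCircle

/-- Velocity space `ℝ^3` with the Euclidean norm and Lebesgue measure. -/
abbrev Vel : Type := EuclideanSpace ℝ (Fin 3)

/-- Phase space `𝕋^3 × ℝ^3` with the product measure. -/
abbrev Phase : Type := Torus3 × Vel

/-- The global Maxwellian of density `ρ`, bulk velocity `u` and temperature `θ`,
as a function on phase space (it does not depend on the position). -/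
noncomputable def gMaxw (ρ : ℝ) (u : Vel) (θ : ℝ) (z : Phase) : ℝ :=
  ρ * (2 * Real.pi * θ) ^ (-(3 : ℝ) / 2) * Real.exp (-‖z.2 - u‖ ^ 2 / (2 * θ))

/-- The reference Maxwellian `M(v) = (2π)^(-3/2) exp(-|v|^2/2)`. -/
noncomputable def stdMaxw (z : Phase) : ℝ :=
  (2 * Real.pi) ^ (-(3 : ℝ) / 2) * Real.exp (-‖z.2‖ ^ 2 / 2)

/-- Relative entropy `∫ (F log(F/N) - F + N)` over phase space, as an extended
nonnegative number (the integrand is nonnegative when `F ≥ 0` and `N > 0`). -/
noncomputable def relEnt (F N : Phase → ℝ) : ENNReal :=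
  ∫⁻ z, ENNReal.ofReal (F z * Real.log (F z / N z) - F z + N z)

/-- The global consequences of the definition of a renormalized entropy solution
that are used here: for every time `t ≥ 0` the density `F t` is nonnegative with finite
mass and energy, has the mass and momentum of the datum `F0`, at most its energy, and
at most its entropy relative to the reference Maxwellian. -/
structure BalanceClass (F0 : Phase → ℝ) (F : ℝ → Phase → ℝ) : Prop where
  nonneg : ∀ t : ℝ, 0 ≤ t → ∀ᵐ z ∂(volume : Measure Phase), 0 ≤ F t z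
  integrable : ∀ t : ℝ, 0 ≤ t → Integrable (F t) (volume : Measure Phase)
  integrable_energy : ∀ t : ℝ, 0 ≤ t →
    Integrable (fun z : Phase => ‖z.2‖ ^ 2 * F t z) (volume : Measure Phase)
  mass : ∀ t : ℝ, 0 ≤ t → ∫ z, F t z = ∫ z, F0 z
  momentum : ∀ t : ℝ, 0 ≤ t → ∫ z : Phase, F t z • z.2 = ∫ z : Phase, F0 z • z.2
  energy : ∀ t : ℝ, 0 ≤ t → ∫ z : Phase, ‖z.2‖ ^ 2 * F t z ≤ ∫ z : Phase, ‖z.2‖ ^ 2 * F0 z
  entropy : ∀ t : ℝ, 0 ≤ t → relEnt (F t) stdMaxw ≤ relEnt F0 stdMaxw

end Vale.Agent.Lib.P140
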