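import Vale.Agent.Lib.P140.Basic

namespace Vale.Agent.Lib.P140

open MeasureTheory

/-- Decay of the entropy relative to a global Maxwellian of any temperature, for a member of
the balance class at a time at which either the temperature of the Maxwellian is at most one
or the kinetic energy equals that of the datum. -/
theorem relEnt_decay_any (ρ θ : ℝ) (u : Vel) (hρ : 0 < ρ) (hθ : 0 < θ)
    (F0 : Phase → ℝ) (hF0_nn : ∀ᵐ z ∂(volume : Measure Phase), 0 ≤ F0 z)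
    (hF0 : Integrable F0) (hF0e : Integrable (fun z : Phase => ‖z.2‖ ^ 2 * F0 z))
    (F : ℝ → Phase → ℝ) (hF : BalanceClass F0 F) (t : ℝ) (ht : 0 ≤ t)
    (hcase : θ ≤ 1 ∨ ∫ z : Phase, ‖z.2‖ ^ 2 * F t z = ∫ z : Phase, ‖z.2‖ ^ 2 * F0 z) :
    relEnt (F t) (gMaxw ρ u θ) ≤ relEnt F0 (gMaxw ρ u θ) := by
  rcases hcase with hθ1 | hE
  · exact cold_relEnt_decay ρ θ u hρ hθ hθ1 F0 hF0_nn hF0 hF0e F hF t ht
  · exact relEnt_le_of_balance' ρ θ u hρ hθ (F t) F0 (hF.nonneg t ht) hF0_nn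
      (hF.integrable t ht) hF0 (hF.integrable_energy t ht) hF0e (hF.mass t ht)
      (hF.momentum t ht) (by rw [hE]) (hF.entropy t ht)

/-- Distance in `L^1` to a global Maxwellian of any temperature, under the same alternative. -/
theorem l1_stability_any (ρ θ : ℝ) (u : Vel) (hρ : 0 < ρ) (hθ : 0 < θ)
    (F0 : Phase → ℝ) (hF0_nn : ∀ᵐ z ∂(volume : Measure Phase), 0 ≤ F0 z)
    (hF0 : Integrable F0) (hF0e : Integrable (fun z : Phase => ‖z.2‖ ^ 2 * F0 z))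
    (hfin : relEnt F0 (gMaxw ρ u θ) ≠ ⊤)
    (F : ℝ → Phase → ℝ) (hF : BalanceClass F0 F) (t : ℝ) (ht : 0 ≤ t)
    (hcase : θ ≤ 1 ∨ ∫ z : Phase, ‖z.2‖ ^ 2 * F t z = ∫ z : Phase, ‖z.2‖ ^ 2 * F0 z) :
    (∫ z, |F t z - gMaxw ρ u θ z|) ^ 2
      ≤ 2 * ((∫ z, F0 z) + ρ) * (relEnt F0 (gMaxw ρ u θ)).toReal := by
  have hdec := relEnt_decay_any ρ θ u hρ hθ F0 hF0_nn hF0 hF0e F hF t ht hcase
  have hfin' : relEnt (F t) (gMaxw ρ u θ) ≠ ⊤ := ne_top_of_le_ne_top hfin hdec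
  have h := l1_sq_le_relEnt (F t) (gMaxw ρ u θ) (hF.nonneg t ht) (hF.integrable t ht)
    (continuous_gMaxw ρ u θ).measurable (gMaxw_pos ρ u θ hρ hθ) (integrable_gMaxw ρ u θ hθ) hfin'
  rw [integral_gMaxw ρ u θ hθ, hF.mass t ht] at h
  have hmono : (relEnt (F t) (gMaxw ρ u θ)).toReal ≤ (relEnt F0 (gMaxw ρ u θ)).toReal :=
    ENNReal.toReal_mono hfin hdec
  have hS : 0 ≤ 2 * ((∫ z, F0 z) + ρ) := by
    have : 0 ≤ ∫ z, F0 z := integral_nonneg_of_ae hF0_nn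
    positivity
  exact le_trans h (mul_le_mul_of_nonneg_left hmono hS)

/-- Quantitative near-uniqueness relative to a global Maxwellian of any temperature: for
temperature at most one, or for two members of the balance class that both have the kinetic
energy of the datum at the time considered. -/
theorem near_uniqueness_any (ρ θ : ℝ) (u : Vel) (hρ : 0 < ρ) (hθ : 0 < θ)
    (F0 : Phase → ℝ) (hF0_nn : ∀ᵐ z ∂(volume : Measure Phase), 0 ≤ F0 z)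
    (hF0 : Integrable F0) (hF0e : Integrable (fun z : Phase => ‖z.2‖ ^ 2 * F0 z))
    (hfin : relEnt F0 (gMaxw ρ u θ) ≠ ⊤)
    (F G : ℝ → Phase → ℝ) (hF : BalanceClass F0 F) (hG : BalanceClass F0 G)
    (t : ℝ) (ht : 0 ≤ t)
    (hcase : θ ≤ 1 ∨
      ((∫ z : Phase, ‖z.2‖ ^ 2 * F t z = ∫ z : Phase, ‖z.2‖ ^ 2 * F0 z) ∧
        ∫ z : Phase, ‖z.2‖ ^ 2 * G t z = ∫ z : Phase, ‖z.2‖ ^ 2 * F0 z)) :
    (∫ z, |F t z - G t z|) ^ 2
      ≤ 8 * ((∫ z, F0 z) + ρ) * (relEnt F0 (gMaxw ρ u θ)).toReal := by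
  have hcF : θ ≤ 1 ∨ ∫ z : Phase, ‖z.2‖ ^ 2 * F t z = ∫ z : Phase, ‖z.2‖ ^ 2 * F0 z :=
    hcase.imp id (fun h => h.1)
  have hcG : θ ≤ 1 ∨ ∫ z : Phase, ‖z.2‖ ^ 2 * G t z = ∫ z : Phase, ‖z.2‖ ^ 2 * F0 z :=
    hcase.imp id (fun h => h.2)
  have h1 := l1_stability_any ρ θ u hρ hθ F0 hF0_nn hF0 hF0e hfin F hF t ht hcF
  have h2 := l1_stability_any ρ θ u hρ hθ F0 hF0_nn hF0 hF0e hfin G hG t ht hcG
  have hM'i := integrable_gMaxw ρ u θ hθ
  have i1 : Integrable (fun z => |F t z - gMaxw ρ u θ z|) := ((hF.integrable t ht).sub hM'i).abs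
  have i2 : Integrable (fun z => |G t z - gMaxw ρ u θ z|) := ((hG.integrable t ht).sub hM'i).abs
  have i3 : Integrable (fun z => |F t z - G t z|) :=
    ((hF.integrable t ht).sub (hG.integrable t ht)).abs
  have htri : ∫ z, |F t z - G t z|
      ≤ (∫ z, |F t z - gMaxw ρ u θ z|) + ∫ z, |G t z - gMaxw ρ u θ z| := by
    rw [← integral_add i1 i2]
    apply integral_mono i3 (i1.add i2)
    intro z
    have : F t z - G t z = (F t z - gMaxw ρ u θ z) - (G t z - gMaxw ρ u θ z) := by ring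
    simp only [this]
    exact abs_sub _ _
  have hD0 : 0 ≤ ∫ z, |F t z - G t z| := integral_nonneg fun z => abs_nonneg _
  have hD1 : 0 ≤ ∫ z, |F t z - gMaxw ρ u θ z| := integral_nonneg fun z => abs_nonneg _
  have hD2 : 0 ≤ ∫ z, |G t z - gMaxw ρ u θ z| := integral_nonneg fun z => abs_nonneg _
  nlinarith [sq_nonneg ((∫ z, |F t z - gMaxw ρ u θ z|) - ∫ z, |G t z - gMaxw ρ u θ z|)]

end Vale.Agent.Lib.P140
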